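import Vale.Agent.P129.Main

/-!
P129: a Banach space generated by fewer than `p` absolutely convex weakly compact sets has a
separable infinite-dimensional quotient.
-/

open Cardinal Set

namespace Vale.Agent.Results.P129.FewWeaklyCompactSets

open Vale.Agent.P129

universe u v

theorem result :
    ℵ₀ < pseudoNumber ∧
      ∀ (𝕜 : Type) [RCLike 𝕜] (X : Type u) [NormedAddCommGroup X] [NormedSpace 𝕜 X]
        [CompleteSpace X], ¬FiniteDimensional 𝕜 X →
        ∀ (ι : Type v) (K : ι → Set X), (∀ i, IsWeaklyCompactDisc 𝕜 (K i)) →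
          Dense (Submodule.span 𝕜 (⋃ i, K i) : Set X) →
          Cardinal.lift.{0} (Cardinal.mk ι) < Cardinal.lift.{v} pseudoNumber →
          HasSeparableQuotient 𝕜 X :=
  ⟨aleph0_lt_pseudoNumber, fun _ _ _ _ _ _ hX _ K hK hd hι =>
    hasSeparableQuotient_of_lt_pseudoNumber hX K hK hd hι⟩

end Vale.Agent.Results.P129.FewWeaklyCompactSets
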